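import Vale.Agent.P154N.EOpt

/-! grid data -/

namespace Vale.Agent.P154.E

def rows1 : List (ℕ × ℕ × ℕ) := [(nat_lit 1, nat_lit 3, nat_lit 1), (nat_lit 2, nat_lit 4, nat_lit 5), (nat_lit 3, nat_lit 5, nat_lit 10), (nat_lit 4, nat_lit 5, nat_lit 16), (nat_lit 5, nat_lit 6, nat_lit 22), (nat_lit 6, nat_lit 6, nat_lit 29), (nat_lit 7, nat_lit 8, nat_lit 36), (nat_lit 8, nat_lit 8, nat_lit 45), (nat_lit 9, nat_lit 12, nat_lit 54), (nat_lit 10, nat_lit 40, nat_lit 67)]

def ga1 : List (ℕ × ℕ × ℕ) := [(nat_lit 2400, nat_lit 2400, nat_lit 2400), (nat_lit 2520, nat_lit 2520, nat_lit 2160), (nat_lit 2640, nat_lit 2400, nat_lit 2160), (nat_lit 2760, nat_lit 2280, nat_lit 2160), (nat_lit 2880, nat_lit 2160, nat_lit 2160), (nat_lit 2640, nat_lit 2640, nat_lit 1920), (nat_lit 2820, nat_lit 2460, nat_lit 1920), (nat_lit 3000, nat_lit 2280, nat_lit 1920), (nat_lit 3180, nat_lit 2100, nat_lit 1920), (nat_lit 3360, nat_lit 1920, nat_lit 1920),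 (nat_lit 2760, nat_lit 2760, nat_lit 1680), (nat_lit 2976, nat_lit 2544, nat_lit 1680), (nat_lit 3192, nat_lit 2328, nat_lit 1680), (nat_lit 3408, nat_lit 2112, nat_lit 1680), (nat_lit 3624, nat_lit 1896, nat_lit 1680), (nat_lit 3840, nat_lit 1680, nat_lit 1680), (nat_lit 2880, nat_lit 2880, nat_lit 1440), (nat_lit 3168, nat_lit 2592, nat_lit 1440), (nat_lit 3456, nat_lit 2304, nat_lit 1440), (nat_lit 3744, nat_lit 2016, nat_lit 1440), (nat_lit 4032, nat_lit 1728, nat_lit 1440), (nat_lit 4320, nat_lit 1440, nat_lit 1440), (nat_lit 3000, nat_lit 3000, nat_lit 1200), (nat_lit 3300, nat_lit 2700, nat_lit 1200), (nat_lit 3600, nat_lit 2400, nat_lit 1200), (nat_lit 3900, nat_lit 2100, nat_lit 1200), (nat_lit 4200, nat_lit 1800, nat_lit 1200), (nat_lit 4500, nat_lit 1500, nat_lit 1200), (nat_lit 4800, nat_lit 1200, nat_lit 1200), (nat_lit 3120, nat_lit 3120, nat_lit 960), (nat_lit 3480, nat_lit 2760, nat_lit 960), (nat_lit 3840, nat_lit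 2400, nat_lit 960), (nat_lit 4200, nat_lit 2040, nat_lit 960), (nat_lit 4560, nat_lit 1680, nat_lit 960), (nat_lit 4920, nat_lit 1320, nat_lit 960), (nat_lit 5280, nat_lit 960, nat_lit 960), (nat_lit 3240, nat_lit 3240, nat_lit 720), (nat_lit 3555, nat_lit 2925, nat_lit 720), (nat_lit 3870, nat_lit 2610, nat_lit 720), (nat_lit 4185, nat_lit 2295, nat_lit 720), (nat_lit 4500, nat_lit 1980, nat_lit 720), (nat_lit 4815, nat_lit 1665, nat_lit 720), (nat_lit 5130, nat_lit 1350, nat_lit 720), (nat_lit 5445, nat_lit 1035, nat_lit 720), (nat_lit 5760, nat_lit 720, nat_lit 720), (nat_lit 3360, nat_lit 3360, nat_lit 480), (nat_lit 3720, nat_lit 3000, nat_lit 480), (nat_lit 4080, nat_lit 2640, nat_lit 480), (nat_lit 4440, nat_lit 2280, nat_lit 480), (nat_lit 4800, nat_lit 1920, nat_lit 480), (nat_lit 5160, nat_lit 1560, nat_lit 480), (nat_lit 5520, nat_lit 1200, nat_lit 480), (nat_lit 5880, nat_lit 840, nat_lit 480), (nat_lit 6240, nat_lit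 480, nat_lit 480), (nat_lit 3480, nat_lit 3480, nat_lit 240), (nat_lit 3750, nat_lit 3210, nat_lit 240), (nat_lit 4020, nat_lit 2940, nat_lit 240), (nat_lit 4290, nat_lit 2670, nat_lit 240), (nat_lit 4560, nat_lit 2400, nat_lit 240), (nat_lit 4830, nat_lit 2130, nat_lit 240), (nat_lit 5100, nat_lit 1860, nat_lit 240), (nat_lit 5370, nat_lit 1590, nat_lit 240), (nat_lit 5640, nat_lit 1320, nat_lit 240), (nat_lit 5910, nat_lit 1050, nat_lit 240), (nat_lit 6180, nat_lit 780, nat_lit 240), (nat_lit 6450, nat_lit 510, nat_lit 240), (nat_lit 6720, nat_lit 240, nat_lit 240), (nat_lit 3600, nat_lit 3600, nat_lit 0), (nat_lit 3690, nat_lit 3510, nat_lit 0), (nat_lit 3780, nat_lit 3420, nat_lit 0), (nat_lit 3870, nat_lit 3330, nat_lit 0), (nat_lit 3960, nat_lit 3240, nat_lit 0), (nat_lit 4050, nat_lit 3150, nat_lit 0), (nat_lit 4140, nat_lit 3060, nat_lit 0), (nat_lit 4230, nat_lit 2970, nat_lit 0), (nat_lit 4320, nat_lit 2880, nat_lit 0),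 (nat_lit 4410, nat_lit 2790, nat_lit 0), (nat_lit 4500, nat_lit 2700, nat_lit 0), (nat_lit 4590, nat_lit 2610, nat_lit 0), (nat_lit 4680, nat_lit 2520, nat_lit 0), (nat_lit 4770, nat_lit 2430, nat_lit 0), (nat_lit 4860, nat_lit 2340, nat_lit 0), (nat_lit 4950, nat_lit 2250, nat_lit 0), (nat_lit 5040, nat_lit 2160, nat_lit 0), (nat_lit 5130, nat_lit 2070, nat_lit 0), (nat_lit 5220, nat_lit 1980, nat_lit 0), (nat_lit 5310, nat_lit 1890, nat_lit 0), (nat_lit 5400, nat_lit 1800, nat_lit 0), (nat_lit 5490, nat_lit 1710, nat_lit 0), (nat_lit 5580, nat_lit 1620, nat_lit 0), (nat_lit 5670, nat_lit 1530, nat_lit 0), (nat_lit 5760, nat_lit 1440, nat_lit 0), (nat_lit 5850, nat_lit 1350, nat_lit 0), (nat_lit 5940, nat_lit 1260, nat_lit 0), (nat_lit 6030, nat_lit 1170, nat_lit 0), (nat_lit 6120, nat_lit 1080, nat_lit 0), (nat_lit 6210, nat_lit 990, nat_lit 0), (nat_lit 6300, nat_lit 900, nat_lit 0), (nat_lit 6390, nat_lit 810, nat_lit 0), (nat_lit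 6480, nat_lit 720, nat_lit 0), (nat_lit 6570, nat_lit 630, nat_lit 0), (nat_lit 6660, nat_lit 540, nat_lit 0), (nat_lit 6750, nat_lit 450, nat_lit 0), (nat_lit 6840, nat_lit 360, nat_lit 0), (nat_lit 6930, nat_lit 270, nat_lit 0), (nat_lit 7020, nat_lit 180, nat_lit 0), (nat_lit 7110, nat_lit 90, nat_lit 0), (nat_lit 7200, nat_lit 0, nat_lit 0)]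

def ka1 : List (ℕ × ℕ × ℕ) := [(nat_lit 4800, nat_lit 4800, nat_lit 4800), (nat_lit 4680, nat_lit 4680, nat_lit 5040), (nat_lit 4560, nat_lit 4800, nat_lit 5040), (nat_lit 4440, nat_lit 4920, nat_lit 5040), (nat_lit 4320, nat_lit 5040, nat_lit 5040), (nat_lit 4560, nat_lit 4560, nat_lit 5280), (nat_lit 4380, nat_lit 4740, nat_lit 5280), (nat_lit 4200, nat_lit 4920, nat_lit 5280), (nat_lit 4020, nat_lit 5100, nat_lit 5280), (nat_lit 3840, nat_lit 5280, nat_lit 5280), (nat_lit 4440, nat_lit 4440, nat_lit 5520), (nat_lit 4224, nat_lit 4656, nat_lit 5520), (nat_lit 4008, nat_lit 4872, nat_lit 5520), (nat_lit 3792, nat_lit 5088, nat_lit 5520), (nat_lit 3576, nat_lit 5304, nat_lit 5520), (nat_lit 3360, nat_lit 5520, nat_lit 5520), (nat_lit 4320, nat_lit 4320, nat_lit 5760), (nat_lit 4032, nat_lit 4608, nat_lit 5760), (nat_lit 3744, nat_lit 4896, nat_lit 5760), (nat_lit 3456, nat_lit 5184, nat_lit 5760), (nat_lit 3168, nat_lit 5472, nat_lit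 5760), (nat_lit 2880, nat_lit 5760, nat_lit 5760), (nat_lit 4200, nat_lit 4200, nat_lit 6000), (nat_lit 3900, nat_lit 4500, nat_lit 6000), (nat_lit 3600, nat_lit 4800, nat_lit 6000), (nat_lit 3300, nat_lit 5100, nat_lit 6000), (nat_lit 3000, nat_lit 5400, nat_lit 6000), (nat_lit 2700, nat_lit 5700, nat_lit 6000), (nat_lit 2400, nat_lit 6000, nat_lit 6000), (nat_lit 4080, nat_lit 4080, nat_lit 6240), (nat_lit 3720, nat_lit 4440, nat_lit 6240), (nat_lit 3360, nat_lit 4800, nat_lit 6240), (nat_lit 3000, nat_lit 5160, nat_lit 6240), (nat_lit 2640, nat_lit 5520, nat_lit 6240), (nat_lit 2280, nat_lit 5880, nat_lit 6240), (nat_lit 1920, nat_lit 6240, nat_lit 6240), (nat_lit 3960, nat_lit 3960, nat_lit 6480), (nat_lit 3645, nat_lit 4275, nat_lit 6480), (nat_lit 3330, nat_lit 4590, nat_lit 6480), (nat_lit 3015, nat_lit 4905, nat_lit 6480), (nat_lit 2700, nat_lit 5220, nat_lit 6480), (nat_lit 2385, nat_lit 5535, nat_lit 6480), (nat_lit 2070,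 nat_lit 5850, nat_lit 6480), (nat_lit 1755, nat_lit 6165, nat_lit 6480), (nat_lit 1440, nat_lit 6480, nat_lit 6480), (nat_lit 3840, nat_lit 3840, nat_lit 6720), (nat_lit 3480, nat_lit 4200, nat_lit 6720), (nat_lit 3120, nat_lit 4560, nat_lit 6720), (nat_lit 2760, nat_lit 4920, nat_lit 6720), (nat_lit 2400, nat_lit 5280, nat_lit 6720), (nat_lit 2040, nat_lit 5640, nat_lit 6720), (nat_lit 1680, nat_lit 6000, nat_lit 6720), (nat_lit 1320, nat_lit 6360, nat_lit 6720), (nat_lit 960, nat_lit 6720, nat_lit 6720), (nat_lit 3720, nat_lit 3720, nat_lit 6960), (nat_lit 3450, nat_lit 3990, nat_lit 6960), (nat_lit 3180, nat_lit 4260, nat_lit 6960), (nat_lit 2910, nat_lit 4530, nat_lit 6960), (nat_lit 2640, nat_lit 4800, nat_lit 6960), (nat_lit 2370, nat_lit 5070, nat_lit 6960), (nat_lit 2100, nat_lit 5340, nat_lit 6960), (nat_lit 1830, nat_lit 5610, nat_lit 6960), (nat_lit 1560, nat_lit 5880, nat_lit 6960), (nat_lit 1290, nat_lit 6150, nat_lit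 6960), (nat_lit 1020, nat_lit 6420, nat_lit 6960), (nat_lit 750, nat_lit 6690, nat_lit 6960), (nat_lit 480, nat_lit 6960, nat_lit 6960), (nat_lit 3600, nat_lit 3600, nat_lit 7200), (nat_lit 3510, nat_lit 3690, nat_lit 7200), (nat_lit 3420, nat_lit 3780, nat_lit 7200), (nat_lit 3330, nat_lit 3870, nat_lit 7200), (nat_lit 3240, nat_lit 3960, nat_lit 7200), (nat_lit 3150, nat_lit 4050, nat_lit 7200), (nat_lit 3060, nat_lit 4140, nat_lit 7200), (nat_lit 2970, nat_lit 4230, nat_lit 7200), (nat_lit 2880, nat_lit 4320, nat_lit 7200), (nat_lit 2790, nat_lit 4410, nat_lit 7200), (nat_lit 2700, nat_lit 4500, nat_lit 7200), (nat_lit 2610, nat_lit 4590, nat_lit 7200), (nat_lit 2520, nat_lit 4680, nat_lit 7200), (nat_lit 2430, nat_lit 4770, nat_lit 7200), (nat_lit 2340, nat_lit 4860, nat_lit 7200), (nat_lit 2250, nat_lit 4950, nat_lit 7200), (nat_lit 2160, nat_lit 5040, nat_lit 7200), (nat_lit 2070, nat_lit 5130, nat_lit 7200), (nat_lit 1980,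 nat_lit 5220, nat_lit 7200), (nat_lit 1890, nat_lit 5310, nat_lit 7200), (nat_lit 1800, nat_lit 5400, nat_lit 7200), (nat_lit 1710, nat_lit 5490, nat_lit 7200), (nat_lit 1620, nat_lit 5580, nat_lit 7200), (nat_lit 1530, nat_lit 5670, nat_lit 7200), (nat_lit 1440, nat_lit 5760, nat_lit 7200), (nat_lit 1350, nat_lit 5850, nat_lit 7200), (nat_lit 1260, nat_lit 5940, nat_lit 7200), (nat_lit 1170, nat_lit 6030, nat_lit 7200), (nat_lit 1080, nat_lit 6120, nat_lit 7200), (nat_lit 990, nat_lit 6210, nat_lit 7200), (nat_lit 900, nat_lit 6300, nat_lit 7200), (nat_lit 810, nat_lit 6390, nat_lit 7200), (nat_lit 720, nat_lit 6480, nat_lit 7200), (nat_lit 630, nat_lit 6570, nat_lit 7200), (nat_lit 540, nat_lit 6660, nat_lit 7200), (nat_lit 450, nat_lit 6750, nat_lit 7200), (nat_lit 360, nat_lit 6840, nat_lit 7200), (nat_lit 270, nat_lit 6930, nat_lit 7200), (nat_lit 180, nat_lit 7020, nat_lit 7200), (nat_lit 90, nat_lit 7110, nat_lit 7200), (nat_lit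 0, nat_lit 7200, nat_lit 7200)]

def Gam1 : ℕ := nat_lit 7200

def TB1 : ℕ := nat_lit 25126444706026272859659009727792591911460585125117952

/-- the tensor of the channel pairs -/
noncomputable def TK1 : List (List ℕ) := tensO (nat_lit 10) TB1 (nat_lit 414720000) ka1

/-- the tensor of the pairs -/
noncomputable def TG1 : List (List ℕ) := tensO (nat_lit 10) TB1 (nat_lit 103680000) ga1

end Vale.Agent.P154.E
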