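import Vale.Agent.P154N.EOpt

/-! grid data -/

namespace Vale.Agent.P154.E

def rows2 : List (ℕ × ℕ × ℕ) := [(nat_lit 1, nat_lit 3, nat_lit 1), (nat_lit 2, nat_lit 5, nat_lit 5), (nat_lit 3, nat_lit 6, nat_lit 11), (nat_lit 4, nat_lit 7, nat_lit 18), (nat_lit 5, nat_lit 8, nat_lit 26), (nat_lit 6, nat_lit 8, nat_lit 35), (nat_lit 7, nat_lit 8, nat_lit 44), (nat_lit 8, nat_lit 8, nat_lit 53), (nat_lit 9, nat_lit 8, nat_lit 62), (nat_lit 10, nat_lit 8, nat_lit 71), (nat_lit 11, nat_lit 8, nat_lit 80), (nat_lit 12, nat_lit 8, nat_lit 89), (nat_lit 13, nat_lit 8, nat_lit 98), (nat_lit 14, nat_lit 8, nat_lit 107)]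

def ga2 : List (ℕ × ℕ × ℕ) := [(nat_lit 23520, nat_lit 23520, nat_lit 23520), (nat_lit 24360, nat_lit 24360, nat_lit 21840), (nat_lit 25200, nat_lit 23520, nat_lit 21840), (nat_lit 26040, nat_lit 22680, nat_lit 21840), (nat_lit 26880, nat_lit 21840, nat_lit 21840), (nat_lit 25200, nat_lit 25200, nat_lit 20160), (nat_lit 26208, nat_lit 24192, nat_lit 20160), (nat_lit 27216, nat_lit 23184, nat_lit 20160), (nat_lit 28224, nat_lit 22176, nat_lit 20160), (nat_lit 29232, nat_lit 21168, nat_lit 20160), (nat_lit 30240, nat_lit 20160, nat_lit 20160), (nat_lit 26040, nat_lit 26040, nat_lit 18480), (nat_lit 27300, nat_lit 24780, nat_lit 18480), (nat_lit 28560, nat_lit 23520, nat_lit 18480), (nat_lit 29820, nat_lit 22260, nat_lit 18480), (nat_lit 31080, nat_lit 21000, nat_lit 18480), (nat_lit 32340, nat_lit 19740, nat_lit 18480), (nat_lit 33600, nat_lit 18480, nat_lit 18480), (nat_lit 26880, nat_lit 26880, nat_lit 16800), (nat_lit 28320, nat_lit 25440, nat_lit 16800), (nat_lit 29760, nat_lit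 24000, nat_lit 16800), (nat_lit 31200, nat_lit 22560, nat_lit 16800), (nat_lit 32640, nat_lit 21120, nat_lit 16800), (nat_lit 34080, nat_lit 19680, nat_lit 16800), (nat_lit 35520, nat_lit 18240, nat_lit 16800), (nat_lit 36960, nat_lit 16800, nat_lit 16800), (nat_lit 27720, nat_lit 27720, nat_lit 15120), (nat_lit 29295, nat_lit 26145, nat_lit 15120), (nat_lit 30870, nat_lit 24570, nat_lit 15120), (nat_lit 32445, nat_lit 22995, nat_lit 15120), (nat_lit 34020, nat_lit 21420, nat_lit 15120), (nat_lit 35595, nat_lit 19845, nat_lit 15120), (nat_lit 37170, nat_lit 18270, nat_lit 15120), (nat_lit 38745, nat_lit 16695, nat_lit 15120), (nat_lit 40320, nat_lit 15120, nat_lit 15120), (nat_lit 28560, nat_lit 28560, nat_lit 13440), (nat_lit 30450, nat_lit 26670, nat_lit 13440), (nat_lit 32340, nat_lit 24780, nat_lit 13440), (nat_lit 34230, nat_lit 22890, nat_lit 13440), (nat_lit 36120, nat_lit 21000, nat_lit 13440), (nat_lit 38010, nat_lit 19110, nat_lit 13440), (nat_lit 39900, nat_lit 17220, nat_lit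 13440), (nat_lit 41790, nat_lit 15330, nat_lit 13440), (nat_lit 43680, nat_lit 13440, nat_lit 13440), (nat_lit 29400, nat_lit 29400, nat_lit 11760), (nat_lit 31605, nat_lit 27195, nat_lit 11760), (nat_lit 33810, nat_lit 24990, nat_lit 11760), (nat_lit 36015, nat_lit 22785, nat_lit 11760), (nat_lit 38220, nat_lit 20580, nat_lit 11760), (nat_lit 40425, nat_lit 18375, nat_lit 11760), (nat_lit 42630, nat_lit 16170, nat_lit 11760), (nat_lit 44835, nat_lit 13965, nat_lit 11760), (nat_lit 47040, nat_lit 11760, nat_lit 11760), (nat_lit 30240, nat_lit 30240, nat_lit 10080), (nat_lit 32760, nat_lit 27720, nat_lit 10080), (nat_lit 35280, nat_lit 25200, nat_lit 10080), (nat_lit 37800, nat_lit 22680, nat_lit 10080), (nat_lit 40320, nat_lit 20160, nat_lit 10080), (nat_lit 42840, nat_lit 17640, nat_lit 10080), (nat_lit 45360, nat_lit 15120, nat_lit 10080), (nat_lit 47880, nat_lit 12600, nat_lit 10080), (nat_lit 50400, nat_lit 10080, nat_lit 10080), (nat_lit 31080, nat_lit 31080, nat_lit 8400), (nat_lit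 33915, nat_lit 28245, nat_lit 8400), (nat_lit 36750, nat_lit 25410, nat_lit 8400), (nat_lit 39585, nat_lit 22575, nat_lit 8400), (nat_lit 42420, nat_lit 19740, nat_lit 8400), (nat_lit 45255, nat_lit 16905, nat_lit 8400), (nat_lit 48090, nat_lit 14070, nat_lit 8400), (nat_lit 50925, nat_lit 11235, nat_lit 8400), (nat_lit 53760, nat_lit 8400, nat_lit 8400), (nat_lit 31920, nat_lit 31920, nat_lit 6720), (nat_lit 35070, nat_lit 28770, nat_lit 6720), (nat_lit 38220, nat_lit 25620, nat_lit 6720), (nat_lit 41370, nat_lit 22470, nat_lit 6720), (nat_lit 44520, nat_lit 19320, nat_lit 6720), (nat_lit 47670, nat_lit 16170, nat_lit 6720), (nat_lit 50820, nat_lit 13020, nat_lit 6720), (nat_lit 53970, nat_lit 9870, nat_lit 6720), (nat_lit 57120, nat_lit 6720, nat_lit 6720), (nat_lit 32760, nat_lit 32760, nat_lit 5040), (nat_lit 36225, nat_lit 29295, nat_lit 5040), (nat_lit 39690, nat_lit 25830, nat_lit 5040), (nat_lit 43155, nat_lit 22365, nat_lit 5040), (nat_lit 46620, nat_lit 18900, nat_lit 5040),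 (nat_lit 50085, nat_lit 15435, nat_lit 5040), (nat_lit 53550, nat_lit 11970, nat_lit 5040), (nat_lit 57015, nat_lit 8505, nat_lit 5040), (nat_lit 60480, nat_lit 5040, nat_lit 5040), (nat_lit 33600, nat_lit 33600, nat_lit 3360), (nat_lit 37380, nat_lit 29820, nat_lit 3360), (nat_lit 41160, nat_lit 26040, nat_lit 3360), (nat_lit 44940, nat_lit 22260, nat_lit 3360), (nat_lit 48720, nat_lit 18480, nat_lit 3360), (nat_lit 52500, nat_lit 14700, nat_lit 3360), (nat_lit 56280, nat_lit 10920, nat_lit 3360), (nat_lit 60060, nat_lit 7140, nat_lit 3360), (nat_lit 63840, nat_lit 3360, nat_lit 3360), (nat_lit 34440, nat_lit 34440, nat_lit 1680), (nat_lit 38535, nat_lit 30345, nat_lit 1680), (nat_lit 42630, nat_lit 26250, nat_lit 1680), (nat_lit 46725, nat_lit 22155, nat_lit 1680), (nat_lit 50820, nat_lit 18060, nat_lit 1680), (nat_lit 54915, nat_lit 13965, nat_lit 1680), (nat_lit 59010, nat_lit 9870, nat_lit 1680), (nat_lit 63105, nat_lit 5775, nat_lit 1680), (nat_lit 67200, nat_lit 1680, nat_lit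 1680), (nat_lit 35280, nat_lit 35280, nat_lit 0), (nat_lit 39690, nat_lit 30870, nat_lit 0), (nat_lit 44100, nat_lit 26460, nat_lit 0), (nat_lit 48510, nat_lit 22050, nat_lit 0), (nat_lit 52920, nat_lit 17640, nat_lit 0), (nat_lit 57330, nat_lit 13230, nat_lit 0), (nat_lit 61740, nat_lit 8820, nat_lit 0), (nat_lit 66150, nat_lit 4410, nat_lit 0), (nat_lit 70560, nat_lit 0, nat_lit 0)]

def ka2 : List (ℕ × ℕ × ℕ) := [(nat_lit 47040, nat_lit 47040, nat_lit 47040), (nat_lit 46200, nat_lit 46200, nat_lit 48720), (nat_lit 45360, nat_lit 47040, nat_lit 48720), (nat_lit 44520, nat_lit 47880, nat_lit 48720), (nat_lit 43680, nat_lit 48720, nat_lit 48720), (nat_lit 45360, nat_lit 45360, nat_lit 50400), (nat_lit 44352, nat_lit 46368, nat_lit 50400), (nat_lit 43344, nat_lit 47376, nat_lit 50400), (nat_lit 42336, nat_lit 48384, nat_lit 50400), (nat_lit 41328, nat_lit 49392, nat_lit 50400), (nat_lit 40320, nat_lit 50400, nat_lit 50400), (nat_lit 44520, nat_lit 44520, nat_lit 52080), (nat_lit 43260,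 nat_lit 45780, nat_lit 52080), (nat_lit 42000, nat_lit 47040, nat_lit 52080), (nat_lit 40740, nat_lit 48300, nat_lit 52080), (nat_lit 39480, nat_lit 49560, nat_lit 52080), (nat_lit 38220, nat_lit 50820, nat_lit 52080), (nat_lit 36960, nat_lit 52080, nat_lit 52080), (nat_lit 43680, nat_lit 43680, nat_lit 53760), (nat_lit 42240, nat_lit 45120, nat_lit 53760), (nat_lit 40800, nat_lit 46560, nat_lit 53760), (nat_lit 39360, nat_lit 48000, nat_lit 53760), (nat_lit 37920, nat_lit 49440, nat_lit 53760), (nat_lit 36480, nat_lit 50880, nat_lit 53760), (nat_lit 35040, nat_lit 52320, nat_lit 53760), (nat_lit 33600, nat_lit 53760, nat_lit 53760), (nat_lit 42840, nat_lit 42840, nat_lit 55440), (nat_lit 41265, nat_lit 44415, nat_lit 55440), (nat_lit 39690, nat_lit 45990, nat_lit 55440), (nat_lit 38115, nat_lit 47565, nat_lit 55440), (nat_lit 36540, nat_lit 49140, nat_lit 55440), (nat_lit 34965, nat_lit 50715, nat_lit 55440), (nat_lit 33390, nat_lit 52290, nat_lit 55440), (nat_lit 31815, nat_lit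 53865, nat_lit 55440), (nat_lit 30240, nat_lit 55440, nat_lit 55440), (nat_lit 42000, nat_lit 42000, nat_lit 57120), (nat_lit 40110, nat_lit 43890, nat_lit 57120), (nat_lit 38220, nat_lit 45780, nat_lit 57120), (nat_lit 36330, nat_lit 47670, nat_lit 57120), (nat_lit 34440, nat_lit 49560, nat_lit 57120), (nat_lit 32550, nat_lit 51450, nat_lit 57120), (nat_lit 30660, nat_lit 53340, nat_lit 57120), (nat_lit 28770, nat_lit 55230, nat_lit 57120), (nat_lit 26880, nat_lit 57120, nat_lit 57120), (nat_lit 41160, nat_lit 41160, nat_lit 58800), (nat_lit 38955, nat_lit 43365, nat_lit 58800), (nat_lit 36750, nat_lit 45570, nat_lit 58800), (nat_lit 34545, nat_lit 47775, nat_lit 58800), (nat_lit 32340, nat_lit 49980, nat_lit 58800), (nat_lit 30135, nat_lit 52185, nat_lit 58800), (nat_lit 27930, nat_lit 54390, nat_lit 58800), (nat_lit 25725, nat_lit 56595, nat_lit 58800), (nat_lit 23520, nat_lit 58800, nat_lit 58800), (nat_lit 40320, nat_lit 40320, nat_lit 60480), (nat_lit 37800, nat_lit 42840, nat_lit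 60480), (nat_lit 35280, nat_lit 45360, nat_lit 60480), (nat_lit 32760, nat_lit 47880, nat_lit 60480), (nat_lit 30240, nat_lit 50400, nat_lit 60480), (nat_lit 27720, nat_lit 52920, nat_lit 60480), (nat_lit 25200, nat_lit 55440, nat_lit 60480), (nat_lit 22680, nat_lit 57960, nat_lit 60480), (nat_lit 20160, nat_lit 60480, nat_lit 60480), (nat_lit 39480, nat_lit 39480, nat_lit 62160), (nat_lit 36645, nat_lit 42315, nat_lit 62160), (nat_lit 33810, nat_lit 45150, nat_lit 62160), (nat_lit 30975, nat_lit 47985, nat_lit 62160), (nat_lit 28140, nat_lit 50820, nat_lit 62160), (nat_lit 25305, nat_lit 53655, nat_lit 62160), (nat_lit 22470, nat_lit 56490, nat_lit 62160), (nat_lit 19635, nat_lit 59325, nat_lit 62160), (nat_lit 16800, nat_lit 62160, nat_lit 62160), (nat_lit 38640, nat_lit 38640, nat_lit 63840), (nat_lit 35490, nat_lit 41790, nat_lit 63840), (nat_lit 32340, nat_lit 44940, nat_lit 63840), (nat_lit 29190, nat_lit 48090, nat_lit 63840), (nat_lit 26040, nat_lit 51240, nat_lit 63840),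 (nat_lit 22890, nat_lit 54390, nat_lit 63840), (nat_lit 19740, nat_lit 57540, nat_lit 63840), (nat_lit 16590, nat_lit 60690, nat_lit 63840), (nat_lit 13440, nat_lit 63840, nat_lit 63840), (nat_lit 37800, nat_lit 37800, nat_lit 65520), (nat_lit 34335, nat_lit 41265, nat_lit 65520), (nat_lit 30870, nat_lit 44730, nat_lit 65520), (nat_lit 27405, nat_lit 48195, nat_lit 65520), (nat_lit 23940, nat_lit 51660, nat_lit 65520), (nat_lit 20475, nat_lit 55125, nat_lit 65520), (nat_lit 17010, nat_lit 58590, nat_lit 65520), (nat_lit 13545, nat_lit 62055, nat_lit 65520), (nat_lit 10080, nat_lit 65520, nat_lit 65520), (nat_lit 36960, nat_lit 36960, nat_lit 67200), (nat_lit 33180, nat_lit 40740, nat_lit 67200), (nat_lit 29400, nat_lit 44520, nat_lit 67200), (nat_lit 25620, nat_lit 48300, nat_lit 67200), (nat_lit 21840, nat_lit 52080, nat_lit 67200), (nat_lit 18060, nat_lit 55860, nat_lit 67200), (nat_lit 14280, nat_lit 59640, nat_lit 67200), (nat_lit 10500, nat_lit 63420, nat_lit 67200), (nat_lit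 6720, nat_lit 67200, nat_lit 67200), (nat_lit 36120, nat_lit 36120, nat_lit 68880), (nat_lit 32025, nat_lit 40215, nat_lit 68880), (nat_lit 27930, nat_lit 44310, nat_lit 68880), (nat_lit 23835, nat_lit 48405, nat_lit 68880), (nat_lit 19740, nat_lit 52500, nat_lit 68880), (nat_lit 15645, nat_lit 56595, nat_lit 68880), (nat_lit 11550, nat_lit 60690, nat_lit 68880), (nat_lit 7455, nat_lit 64785, nat_lit 68880), (nat_lit 3360, nat_lit 68880, nat_lit 68880), (nat_lit 35280, nat_lit 35280, nat_lit 70560), (nat_lit 30870, nat_lit 39690, nat_lit 70560), (nat_lit 26460, nat_lit 44100, nat_lit 70560), (nat_lit 22050, nat_lit 48510, nat_lit 70560), (nat_lit 17640, nat_lit 52920, nat_lit 70560), (nat_lit 13230, nat_lit 57330, nat_lit 70560), (nat_lit 8820, nat_lit 61740, nat_lit 70560), (nat_lit 4410, nat_lit 66150, nat_lit 70560), (nat_lit 0, nat_lit 70560, nat_lit 70560)]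

def Gam2 : ℕ := nat_lit 70560

def TB2 : ℕ := nat_lit 738712862718589828760634300314696308944354086576816759709280096556875776

/-- the tensor of the channel pairs -/
noncomputable def TK2 : List (List ℕ) := tensO (nat_lit 14) TB2 (nat_lit 39829708800) ka2

/-- the tensor of the pairs -/
noncomputable def TG2 : List (List ℕ) := tensO (nat_lit 14) TB2 (nat_lit 9957427200) ga2

end Vale.Agent.P154.E
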