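import Vale.Agent.P154N.EGa1

/-! a piece of the run on grid 1 -/

namespace Vale.Agent.P154.E

def wa1a : List ℕ := [nat_lit 0, nat_lit 0, nat_lit 0, nat_lit 0, nat_lit 0, nat_lit 0, nat_lit 0, nat_lit 0, nat_lit 0, nat_lit 0, nat_lit 0, nat_lit 0, nat_lit 0, nat_lit 0, nat_lit 0, nat_lit 0, nat_lit 0, nat_lit 0, nat_lit 0, nat_lit 0, nat_lit 0, nat_lit 0, nat_lit 0, nat_lit 0, nat_lit 0, nat_lit 0, nat_lit 0, nat_lit 0, nat_lit 0, nat_lit 0, nat_lit 0, nat_lit 0, nat_lit 0, nat_lit 0, nat_lit 0, nat_lit 0, nat_lit 0, nat_lit 0, nat_lit 0, nat_lit 0, nat_lit 0, nat_lit 0, nat_lit 0, nat_lit 0, nat_lit 0, nat_lit 0, nat_lit 0, nat_lit 0, nat_lit 0, nat_lit 0, nat_lit 0, nat_lit 0, nat_lit 0, nat_lit 0, nat_lit 0, nat_lit 0, nat_lit 0, nat_lit 0, nat_lit 0, nat_lit 0, nat_lit 0, nat_lit 0, nat_lit 0, nat_lit 0, nat_lit 0, nat_lit 0, nat_lit 0, nat_lit 0, nat_lit 0, nat_lit 0, nat_lit 0, nat_lit 0, nat_lit 0, nat_lit 0, nat_lit 0, nat_lit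 0, nat_lit 0, nat_lit 0, nat_lit 0, nat_lit 0, nat_lit 0, nat_lit 0, nat_lit 0, nat_lit 0, nat_lit 0, nat_lit 0, nat_lit 0, nat_lit 0, nat_lit 0, nat_lit 0, nat_lit 0, nat_lit 0, nat_lit 0, nat_lit 0, nat_lit 0, nat_lit 0, nat_lit 0, nat_lit 0, nat_lit 0, nat_lit 0, nat_lit 0, nat_lit 0, nat_lit 0, nat_lit 0, nat_lit 0, nat_lit 0, nat_lit 0, nat_lit 67108864]

def wb1a : List ℕ := [nat_lit 8234, nat_lit 6280, nat_lit 11160, nat_lit 14147, nat_lit 8197, nat_lit 10641, nat_lit 21227, nat_lit 22328, nat_lit 21356, nat_lit 10342, nat_lit 13877, nat_lit 26631, nat_lit 27747, nat_lit 28564, nat_lit 31243, nat_lit 17645, nat_lit 19219, nat_lit 36521, nat_lit 42025, nat_lit 41541, nat_lit 45878, nat_lit 25812, nat_lit 22064, nat_lit 46593, nat_lit 47234, nat_lit 51923, nat_lit 54682, nat_lit 63558, nat_lit 36767, nat_lit 32557, nat_lit 69786, nat_lit 70373, nat_lit 78249, nat_lit 89030, nat_lit 108322, nat_lit 68195, nat_lit 34415, nat_lit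 66545, nat_lit 71294, nat_lit 75393, nat_lit 85008, nat_lit 99497, nat_lit 118126, nat_lit 156497, nat_lit 106562, nat_lit 56371, nat_lit 106907, nat_lit 114015, nat_lit 124334, nat_lit 138819, nat_lit 163860, nat_lit 210645, nat_lit 317706, nat_lit 232209, nat_lit 86670, nat_lit 168377, nat_lit 164921, nat_lit 179465, nat_lit 189841, nat_lit 200749, nat_lit 219593, nat_lit 248723, nat_lit 288311, nat_lit 357944, nat_lit 473120, nat_lit 756892, nat_lit 569826, nat_lit 599392, nat_lit 890514, nat_lit 859010, nat_lit 904689, nat_lit 878780, nat_lit 813760, nat_lit 833598, nat_lit 807905, nat_lit 801402, nat_lit 830673, nat_lit 790839, nat_lit 768549, nat_lit 827103, nat_lit 825089, nat_lit 766752, nat_lit 793809, nat_lit 814224, nat_lit 807969, nat_lit 800221, nat_lit 821132, nat_lit 818705, nat_lit 830225, nat_lit 843874, nat_lit 881232, nat_lit 897027, nat_lit 898732, nat_lit 949336, nat_lit 986156, nat_lit 1029497, nat_lit 1047216,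 nat_lit 1170289, nat_lit 1235611, nat_lit 1317524, nat_lit 1463938, nat_lit 1681587, nat_lit 1813368, nat_lit 2120818, nat_lit 2341331, nat_lit 2287653, nat_lit 2830037, nat_lit 15916715]

theorem run1a : leqO (iterO (nat_lit 107) TK1 TG1 (nat_lit 44) wa1a) wb1a = true := by
  decide +kernel

end Vale.Agent.P154.E
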