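import Vale.Agent.P154N.EGa2

/-! a piece of the run on grid 2 -/

namespace Vale.Agent.P154.E

def wa2a : List ℕ := [nat_lit 92263, nat_lit 45568, nat_lit 101674, nat_lit 87333, nat_lit 61514, nat_lit 55140, nat_lit 60974, nat_lit 84163, nat_lit 78056, nat_lit 58589, nat_lit 67570, nat_lit 99044, nat_lit 102347, nat_lit 102347, nat_lit 209448, nat_lit 104485, nat_lit 104485, nat_lit 106242, nat_lit 130930, nat_lit 152234, nat_lit 152808, nat_lit 205275, nat_lit 210317, nat_lit 166444, nat_lit 170797, nat_lit 150735, nat_lit 124404, nat_lit 97025, nat_lit 145537, nat_lit 203150, nat_lit 103074, nat_lit 209148, nat_lit 167594, nat_lit 111729, nat_lit 151282, nat_lit 137507, nat_lit 107479, nat_lit 161218, nat_lit 227747, nat_lit 115650, nat_lit 234853, nat_lit 187342, nat_lit 124894, nat_lit 170397, nat_lit 254935, nat_lit 337953, nat_lit 342421, nat_lit 346889, nat_lit 555768, nat_lit 388669, nat_lit 411037, nat_lit 433404, nat_lit 356209, nat_lit 207832, nat_lit 282657, nat_lit 286758, nat_lit 290859, nat_lit 460040, nat_lit 337588, nat_lit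 361558, nat_lit 385529, nat_lit 325925, nat_lit 212703, nat_lit 333290, nat_lit 340453, nat_lit 351889, nat_lit 474742, nat_lit 407805, nat_lit 444669, nat_lit 495621, nat_lit 352923, nat_lit 296594, nat_lit 579409, nat_lit 597123, nat_lit 631934, nat_lit 672194, nat_lit 730985, nat_lit 814521, nat_lit 954406, nat_lit 542561, nat_lit 432111, nat_lit 848865, nat_lit 881352, nat_lit 929210, nat_lit 999547, nat_lit 1107958, nat_lit 1288016, nat_lit 1535863, nat_lit 926810, nat_lit 527552, nat_lit 851988, nat_lit 1058195, nat_lit 938799, nat_lit 1173920, nat_lit 1074541, nat_lit 1417736, nat_lit 1317907, nat_lit 834894, nat_lit 629286, nat_lit 959658, nat_lit 1256785, nat_lit 1059745, nat_lit 1386050, nat_lit 1196327, nat_lit 1643597, nat_lit 1400911, nat_lit 904787, nat_lit 1230589, nat_lit 2384307, nat_lit 2353946, nat_lit 2280354, nat_lit 2233839, nat_lit 2161337, nat_lit 2069601, nat_lit 1806693, nat_lit 665123]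

def wb2a : List ℕ := [nat_lit 146910, nat_lit 153433, nat_lit 278128, nat_lit 284190, nat_lit 160420, nat_lit 173704, nat_lit 354319, nat_lit 349662, nat_lit 358410, nat_lit 327542, nat_lit 197341, nat_lit 227760, nat_lit 435660, nat_lit 448618, nat_lit 426521, nat_lit 455745, nat_lit 417115, nat_lit 230876, nat_lit 254431, nat_lit 502205, nat_lit 496436, nat_lit 514525, nat_lit 505156, nat_lit 516612, nat_lit 498306, nat_lit 256429, nat_lit 276616, nat_lit 552865, nat_lit 558546, nat_lit 547675, nat_lit 562557, nat_lit 550775, nat_lit 556588, nat_lit 560055, nat_lit 288003, nat_lit 335176, nat_lit 664043, nat_lit 665292, nat_lit 673201, nat_lit 673395, nat_lit 666761, nat_lit 667030, nat_lit 665883, nat_lit 334375, nat_lit 399479, nat_lit 781125, nat_lit 781586, nat_lit 779701, nat_lit 775869, nat_lit 776505, nat_lit 766590, nat_lit 761400, nat_lit 374279, nat_lit 453873, nat_lit 890307, nat_lit 905617, nat_lit 903077, nat_lit 897181, nat_lit 881051, nat_lit 862793, nat_lit 822703, nat_lit 403969, nat_lit 508547, nat_lit 1003766, nat_lit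 1001078, nat_lit 987646, nat_lit 976241, nat_lit 963532, nat_lit 924032, nat_lit 860021, nat_lit 395860, nat_lit 558502, nat_lit 1100771, nat_lit 1102847, nat_lit 1082513, nat_lit 1054885, nat_lit 1009555, nat_lit 926719, nat_lit 795576, nat_lit 337985, nat_lit 597634, nat_lit 1168284, nat_lit 1158563, nat_lit 1119440, nat_lit 1068666, nat_lit 969290, nat_lit 837126, nat_lit 615097, nat_lit 212602, nat_lit 597006, nat_lit 1154110, nat_lit 1119954, nat_lit 1061170, nat_lit 956309, nat_lit 807739, nat_lit 592598, nat_lit 327696, nat_lit 77218, nat_lit 473222, nat_lit 896266, nat_lit 828739, nat_lit 741105, nat_lit 590190, nat_lit 415786, nat_lit 231704, nat_lit 84173, nat_lit 11340, nat_lit 116135, nat_lit 212762, nat_lit 180208, nat_lit 140299, nat_lit 94157, nat_lit 50083, nat_lit 20340, nat_lit 4812, nat_lit 570]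

theorem run2a : leqO (iterO (nat_lit 115) TK2 TG2 (nat_lit 33) wa2a) wb2a = true := by
  decide +kernel

end Vale.Agent.P154.E
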